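import Vale.Agent.P049.TS.Shell.Sign

/-!
The fourth moment of the entries: `Q₄ = Σ_{a,b ∈ F} Z_ab⁴ ≤ m² tr Z² + small`, and the entry bound
`Z_ab² ≤ (1 + |Z_aa|)(1 + |Z_bb|)`.
-/

set_option linter.unusedSectionVars false

namespace Vale.Agent.P049.TS

open Matrix Finset

variable {ι : Type*} [Fintype ι] [DecidableEq ι]

/-- `Q₄ = Σ_{a,b ∈ F} Z_ab⁴` -/
def Q4 (F : Finset ι) (Z : Matrix ι ι ℝ) : ℝ := ∑ a ∈ F, ∑ b ∈ F, Z a b ^ 4

variable {F : Finset ι} {Z : Matrix ι ι ℝ} {m e : ℝ}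

theorem Q4_nonneg (F : Finset ι) (Z : Matrix ι ι ℝ) : 0 ≤ Q4 F Z :=
  Finset.sum_nonneg fun a _ => Finset.sum_nonneg fun b _ => by positivity

/-- `Σ_{b ∈ F} Z_ab² = (Z²)_aa` -/
theorem Q.sum_sq_row (hs : Z.IsSymm) (h0 : ∀ i j, j ∉ F → Z i j = 0) (a : ι) :
    ∑ b ∈ F, Z a b ^ 2 = (Z ^ 2) a a := by
  rw [sq Z, Matrix.mul_apply, Finset.sum_subset (Finset.subset_univ F) fun j _ hj => by
    rw [h0 a j hj]; ring]
  exact Finset.sum_congr rfl fun j _ => by rw [hs.apply a j, sq]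

theorem Q.sq_diag_nonneg (hs : Z.IsSymm) (a : ι) : 0 ≤ (Z ^ 2) a a := by
  rw [sq Z, Matrix.mul_apply]
  exact Finset.sum_nonneg fun j _ => by rw [hs.apply a j]; exact mul_self_nonneg _

/-- the trivial bound `Q₄ ≤ Σ_a w_a²` -/
theorem Q4_le_sum_sq (hs : Z.IsSymm) (h0 : ∀ i j, j ∉ F → Z i j = 0) :
    Q4 F Z ≤ ∑ a ∈ F, (Z ^ 2) a a ^ 2 := by
  unfold Q4
  apply Finset.sum_le_sum
  intro a _
  rw [← Q.sum_sq_row hs h0 a]
  have h1 : ∀ b ∈ F, 0 ≤ Z a b ^ 2 := fun b _ => sq_nonneg _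
  have h2 : ∀ b ∈ F, Z a b ^ 4 ≤ Z a b ^ 2 * ∑ c ∈ F, Z a c ^ 2 := by
    intro b hb
    have h3 : Z a b ^ 2 ≤ ∑ c ∈ F, Z a c ^ 2 := Finset.single_le_sum h1 hb
    calc Z a b ^ 4 = Z a b ^ 2 * Z a b ^ 2 := by ring
      _ ≤ _ := mul_le_mul_of_nonneg_left h3 (sq_nonneg _)
  calc ∑ b ∈ F, Z a b ^ 4 ≤ ∑ b ∈ F, Z a b ^ 2 * ∑ c ∈ F, Z a c ^ 2 := Finset.sum_le_sum h2
    _ = (∑ b ∈ F, Z a b ^ 2) ^ 2 := by rw [← Finset.sum_mul, sq]

theorem Sg.supp_right (h : Sg F Z m e) (i j : ι) (hj : j ∉ F) : Z i j = 0 := h.supp i j (Or.inr hj)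

/-- `δ = (e + m)/N` is small -/
theorem Sg.abs_delta_le (h : Sg F Z m e) (he : e = 1 ∨ e = -1) (hm : 0 < m) (hm1 : m < 1) :
    |(e + m) / F.card| ≤ 2 / F.card := by
  have hN : (0 : ℝ) < F.card := by exact_mod_cast h.card
  rw [abs_div, abs_of_pos hN]
  apply div_le_div_of_nonneg_right _ hN.le
  rcases he with he | he
  · rw [he, abs_of_pos (by linarith)]; linarith
  · rw [he, abs_of_neg (by linarith)]; linarith

/-- `(m - δ)² ≤ m² + 2|δ|` -/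
theorem Sg.mu_sq_le (h : Sg F Z m e) (he : e = 1 ∨ e = -1) (hm : 0 < m) (hm1 : m < 1) :
    (m - (e + m) / F.card) ^ 2 ≤ m ^ 2 + 2 * |(e + m) / F.card| := by
  have hN : (1 : ℝ) ≤ F.card := by exact_mod_cast h.card
  have hN0 : (0 : ℝ) < F.card := by linarith
  rcases he with he | he
  · have h1 : 0 < (e + m) / (F.card : ℝ) := by rw [he]; positivity
    have h2 : (e + m) / (F.card : ℝ) ≤ 2 := by
      rw [he, div_le_iff₀ hN0]; nlinarith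
    rw [abs_of_pos h1]
    nlinarith
  · set x := (1 - m) / (F.card : ℝ) with hx
    have h0 : (e + m) / (F.card : ℝ) = -x := by rw [he, hx]; ring
    have h1 : 0 < x := by rw [hx]; exact div_pos (by linarith) hN0
    have h2 : x ≤ 1 - m := by
      rw [hx, div_le_iff₀ hN0]; nlinarith
    rw [h0, abs_neg, abs_of_pos h1]
    nlinarith

/-- `0 ≤ e Z_aa + m - δ` -/
theorem Sg.p_nonneg (h : Sg F Z m e) {a : ι} (ha : a ∈ F) :
    0 ≤ e * Z a a + m - (e + m) / F.card := by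
  have := h.diag_zero ha
  linarith

/-- the entry bound in the form used for `Q₄` -/
theorem Sg.entry_sq_d (h : Sg F Z m e) (he : e = 1 ∨ e = -1) {a b : ι} (ha : a ∈ F) (hb : b ∈ F)
    (hab : a ≠ b) : Z a b ^ 2 ≤
      (e * Z a a + m - (e + m) / F.card) * (e * Z b b + m - (e + m) / F.card) +
      2 * |(e + m) / F.card| * |Z a b| := by
  have h1 := h.entry_sq_le ha hb hab
  set δ := (e + m) / (F.card : ℝ)
  have he2 : e ^ 2 = 1 := by rcases he with he | he <;> rw [he] <;> norm_num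
  have h2 : (e * Z a b - δ) ^ 2 = Z a b ^ 2 - 2 * (δ * (e * Z a b)) + δ ^ 2 := by
    linear_combination (Z a b ^ 2) * he2
  have h3 : δ * (e * Z a b) ≤ |δ| * |Z a b| := by
    calc δ * (e * Z a b) ≤ |δ * (e * Z a b)| := le_abs_self _
      _ = |δ| * (|e| * |Z a b|) := by rw [abs_mul, abs_mul]
      _ = |δ| * |Z a b| := by
        have : |e| = 1 := by rcases he with he | he <;> rw [he] <;> norm_num
        rw [this, one_mul]
  nlinarith [sq_nonneg δ]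

/-- **The entry bound** `Z_ab² ≤ (1 + |Z_aa|)(1 + |Z_bb|)` -/
theorem Sg.hent (h : Sg F Z m e) (he : e = 1 ∨ e = -1) (hm : 0 < m) (hm1 : m ≤ 3 / 4)
    (hN : 16 ≤ F.card) (i j : ι) : Z i j ^ 2 ≤ (1 + |Z i i|) * (1 + |Z j j|) := by
  have hpos : 0 ≤ (1 + |Z i i|) * (1 + |Z j j|) := by positivity
  by_cases hi : i ∈ F
  swap
  · rw [h.supp i j (Or.inl hi)]; simpa using hpos
  by_cases hj : j ∈ F
  swap
  · rw [h.supp i j (Or.inr hj)]; simpa using hpos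
  by_cases hij : i = j
  · rw [← hij]
    have h1 := abs_nonneg (Z i i)
    have h2 : Z i i ^ 2 = |Z i i| ^ 2 := (sq_abs _).symm
    nlinarith
  have hNr : (16 : ℝ) ≤ F.card := by exact_mod_cast hN
  have h1 := h.entry_sq_le hi hj hij
  have hd := h.abs_delta_le he hm (by linarith)
  have hd2 : |(e + m) / (F.card : ℝ)| ≤ 1 / 8 := by
    refine hd.trans ?_
    rw [div_le_iff₀ (by linarith)]; linarith
  have hpi := h.p_nonneg hi
  have hpj := h.p_nonneg hj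
  set δ := (e + m) / (F.card : ℝ)
  have hee : |e| = 1 := by rcases he with he | he <;> rw [he] <;> norm_num
  have hb : ∀ a : ι, e * Z a a + m - δ ≤ 7 / 8 + |Z a a| := by
    intro a
    have a1 : e * Z a a ≤ |Z a a| := by
      calc e * Z a a ≤ |e * Z a a| := le_abs_self _
        _ = |Z a a| := by rw [abs_mul, hee, one_mul]
    have a2 : -δ ≤ 1 / 8 := (neg_le_abs δ).trans hd2
    linarith
  have h2 : (e * Z i j - δ) ^ 2 ≤ (7 / 8 + |Z i i|) * (7 / 8 + |Z j j|) :=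
    h1.trans (mul_le_mul (hb i) (hb j) hpj (by positivity))
  set x := |Z i i|
  set y := |Z j j|
  have hx : 0 ≤ x := abs_nonneg _
  have hy : 0 ≤ y := abs_nonneg _
  -- `|Z_ij| ≤ 1/8 + √((7/8+x)(7/8+y)) ≤ √((1+x)(1+y))`
  have h3 : |Z i j| ≤ 1 / 8 + √((7 / 8 + x) * (7 / 8 + y)) := by
    have a1 : |e * Z i j - δ| ≤ √((7 / 8 + x) * (7 / 8 + y)) := Real.abs_le_sqrt h2
    have a2 : |Z i j| = |(e * Z i j - δ) + δ| := by
      rw [sub_add_cancel, abs_mul, hee, one_mul]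
    rw [a2]
    refine (abs_add_le _ _).trans ?_
    linarith
  have h4 : √((7 / 8 + x) * (7 / 8 + y)) ^ 2 = (7 / 8 + x) * (7 / 8 + y) :=
    Real.sq_sqrt (by positivity)
  set q := √((7 / 8 + x) * (7 / 8 + y))
  have hq0 : 0 ≤ q := Real.sqrt_nonneg _
  have h5 : q ≤ 7 / 8 + (x + y) / 2 := by
    apply Real.sqrt_le_iff.2
    refine ⟨by positivity, ?_⟩
    nlinarith [sq_nonneg (x - y)]
  calc Z i j ^ 2 = |Z i j| ^ 2 := (sq_abs _).symm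
    _ ≤ (1 / 8 + q) ^ 2 := pow_le_pow_left₀ (abs_nonneg _) h3 2
    _ = 1 / 64 + q / 4 + q ^ 2 := by ring
    _ ≤ (1 + x) * (1 + y) := by rw [h4]; nlinarith

/-- **The bound for `Q₄`** -/
theorem Sg.Q4_le (h : Sg F Z m e) (he : e = 1 ∨ e = -1) (hm : 0 < m) (hm1 : m < 1) :
    Q4 F Z ≤ m ^ 2 * (Z ^ 2).trace + 2 * m * (e * ∑ a ∈ F, Z a a * (Z ^ 2) a a) +
      ∑ a ∈ F, Z a a ^ 2 * (Z ^ 2) a a + ∑ a ∈ F, Z a a ^ 4 +
      2 / F.card * (3 * (Z ^ 2).trace + 2 * ∑ a ∈ F, |Z a a| * (Z ^ 2) a a +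
        ∑ a ∈ F, (Z ^ 2) a a ^ 2) := by
  have hN : (0 : ℝ) < F.card := by exact_mod_cast h.card
  have hd := h.abs_delta_le he hm hm1
  have hmu := h.mu_sq_le he hm hm1
  have hent : ∀ a ∈ F, ∀ b ∈ F, a ≠ b → Z a b ^ 2 ≤
      (e * Z a a + m - (e + m) / F.card) * (e * Z b b + m - (e + m) / F.card) +
      2 * |(e + m) / F.card| * |Z a b| := fun a ha b hb hab => h.entry_sq_d he ha hb hab
  have hp : ∀ a ∈ F, 0 ≤ e * Z a a + m - (e + m) / F.card := fun a ha => h.p_nonneg ha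
  set δ := (e + m) / (F.card : ℝ) with hδ
  have he2 : e ^ 2 = 1 := by rcases he with he | he <;> rw [he] <;> norm_num
  have hee : |e| = 1 := by rcases he with he | he <;> rw [he] <;> norm_num
  -- traces
  have hT : ∑ a ∈ F, ∑ b ∈ F, Z a b ^ 2 = (Z ^ 2).trace := by
    simp only [Matrix.trace, Matrix.diag]
    rw [← Finset.sum_subset (Finset.subset_univ F) (f := fun i => (Z ^ 2) i i)]
    · exact Finset.sum_congr rfl fun a _ => Q.sum_sq_row h.symm h.supp_right a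
    · intro i _ hi
      exact pow_supp h.supp 1 i i (Or.inl hi)
  have hrow : ∀ a, ∑ b ∈ F, Z a b ^ 2 = (Z ^ 2) a a := Q.sum_sq_row h.symm h.supp_right
  have hcol : ∀ g : ι → ℝ, ∑ a ∈ F, ∑ b ∈ F, Z a b ^ 2 * g b = ∑ b ∈ F, g b * (Z ^ 2) b b := by
    intro g
    rw [Finset.sum_comm]
    apply Finset.sum_congr rfl
    intro b _
    rw [← hrow b, Finset.mul_sum]
    exact Finset.sum_congr rfl fun a _ => by rw [h.symm.apply b a]; ring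
  have hrow' : ∀ g : ι → ℝ, ∑ a ∈ F, ∑ b ∈ F, Z a b ^ 2 * g a = ∑ a ∈ F, g a * (Z ^ 2) a a := by
    intro g
    apply Finset.sum_congr rfl
    intro a _
    rw [← Finset.sum_mul, hrow, mul_comm]
  -- pointwise
  have hpt : ∀ a ∈ F, ∀ b ∈ F, Z a b ^ 4 ≤ (if a = b then Z a a ^ 4 else 0) +
      (Z a b ^ 2 * (m - δ) ^ 2 + (m - δ) * (Z a b ^ 2 * (e * Z a a)) +
        (m - δ) * (Z a b ^ 2 * (e * Z b b)) +
        (1 / 2) * (Z a b ^ 2 * Z a a ^ 2) + (1 / 2) * (Z a b ^ 2 * Z b b ^ 2)) +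
      |δ| * (Z a b ^ 2 + Z a b ^ 4) := by
    intro a ha b hb
    have hexp : Z a b ^ 2 * (m - δ) ^ 2 + (m - δ) * (Z a b ^ 2 * (e * Z a a)) +
        (m - δ) * (Z a b ^ 2 * (e * Z b b)) +
        (1 / 2) * (Z a b ^ 2 * Z a a ^ 2) + (1 / 2) * (Z a b ^ 2 * Z b b ^ 2) =
        Z a b ^ 2 * ((e * Z a a + m - δ) * (e * Z b b + m - δ)) +
        (1 / 2) * Z a b ^ 2 * (Z a a - Z b b) ^ 2 := by
      linear_combination (-(Z a b ^ 2 * Z a a * Z b b)) * he2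
    rw [hexp]
    have q1 : 0 ≤ |δ| * (Z a b ^ 2 + Z a b ^ 4) := by positivity
    have q2 : 0 ≤ (1 / 2) * Z a b ^ 2 * (Z a a - Z b b) ^ 2 := by positivity
    have q3 : 0 ≤ Z a b ^ 2 * ((e * Z a a + m - δ) * (e * Z b b + m - δ)) :=
      mul_nonneg (sq_nonneg _) (mul_nonneg (hp a ha) (hp b hb))
    by_cases hab : a = b
    · rw [if_pos hab]
      have : Z a b ^ 4 = Z a a ^ 4 := by rw [hab]
      linarith
    · rw [if_neg hab]
      have h1 := mul_le_mul_of_nonneg_left (hent a ha b hb hab) (sq_nonneg (Z a b))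
      have h2 : Z a b ^ 2 * (2 * |δ| * |Z a b|) ≤ |δ| * (Z a b ^ 2 + Z a b ^ 4) := by
        have a1 : Z a b ^ 2 = |Z a b| ^ 2 := (sq_abs _).symm
        have a2 : Z a b ^ 4 = |Z a b| ^ 4 := by
          rw [show (4 : ℕ) = 2 * 2 by norm_num, pow_mul, pow_mul, sq_abs]
        rw [a2, a1]
        have a3 := abs_nonneg δ
        have a4 : |Z a b| ^ 2 * (2 * |Z a b|) ≤ |Z a b| ^ 2 + |Z a b| ^ 4 := by
          nlinarith [mul_nonneg (sq_nonneg (|Z a b|)) (sq_nonneg (|Z a b| - 1))]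
        nlinarith [mul_le_mul_of_nonneg_left a4 a3]
      nlinarith [h1, h2]
  -- sum
  have hsum := Finset.sum_le_sum fun a ha => Finset.sum_le_sum (hpt a ha)
  simp only [Finset.sum_add_distrib, ← Finset.mul_sum, hT] at hsum
  rw [hrow' (fun a => e * Z a a), hcol (fun b => e * Z b b), hrow' (fun a => Z a a ^ 2),
    hcol (fun b => Z b b ^ 2)] at hsum
  have e1 : ∑ a ∈ F, ∑ b ∈ F, Z a b ^ 2 * (m - δ) ^ 2 = (m - δ) ^ 2 * (Z ^ 2).trace := by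
    rw [← hT, Finset.mul_sum]
    apply Finset.sum_congr rfl
    intro a _
    rw [Finset.mul_sum]
    exact Finset.sum_congr rfl fun b _ => by ring
  have e2 : ∑ a ∈ F, ∑ b ∈ F, (if a = b then Z a a ^ 4 else 0) = ∑ a ∈ F, Z a a ^ 4 := by
    apply Finset.sum_congr rfl
    intro a ha
    simp [ha]
  have e3 : ∑ a ∈ F, e * Z a a * (Z ^ 2) a a = e * ∑ a ∈ F, Z a a * (Z ^ 2) a a := by
    rw [Finset.mul_sum]
    exact Finset.sum_congr rfl fun a _ => by ring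
  rw [e1, e2, e3] at hsum
  change Q4 F Z ≤ _ at hsum
  have hQd : ∑ a ∈ F, ∑ b ∈ F, Z a b ^ 4 = Q4 F Z := rfl
  rw [hQd] at hsum
  have hQV := Q4_le_sum_sq h.symm h.supp_right
  have hQ0 := Q4_nonneg F Z
  have hT0 : 0 ≤ (Z ^ 2).trace := by
    rw [← hT]
    exact Finset.sum_nonneg fun a _ => Finset.sum_nonneg fun b _ => sq_nonneg _
  set T := (Z ^ 2).trace
  set Y := ∑ a ∈ F, Z a a * (Z ^ 2) a a with hY
  set A := ∑ a ∈ F, |Z a a| * (Z ^ 2) a a with hA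
  set V2 := ∑ a ∈ F, (Z ^ 2) a a ^ 2
  have hYA : |e * Y| ≤ A := by
    rw [abs_mul, hee, one_mul, hY, hA]
    refine (Finset.abs_sum_le_sum_abs _ _).trans (le_of_eq ?_)
    exact Finset.sum_congr rfl fun a _ => by
      rw [abs_mul, abs_of_nonneg (Q.sq_diag_nonneg h.symm a)]
  have hA0 : 0 ≤ A := (abs_nonneg _).trans hYA
  have hV0 : 0 ≤ V2 := hQ0.trans hQV
  have b1 : (m - δ) ^ 2 * T ≤ (m ^ 2 + 2 * |δ|) * T := mul_le_mul_of_nonneg_right hmu hT0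
  have b2 : -(δ * (e * Y)) ≤ |δ| * A := by
    calc -(δ * (e * Y)) ≤ |δ * (e * Y)| := neg_le_abs _
      _ = |δ| * |e * Y| := abs_mul _ _
      _ ≤ |δ| * A := mul_le_mul_of_nonneg_left hYA (abs_nonneg _)
  have b3 : |δ| * Q4 F Z ≤ |δ| * V2 := mul_le_mul_of_nonneg_left hQV (abs_nonneg _)
  have b4 : |δ| * (3 * T + 2 * A + V2) ≤ 2 / F.card * (3 * T + 2 * A + V2) :=
    mul_le_mul_of_nonneg_right hd (by positivity)
  nlinarith [hsum, b1, b2, b3, b4]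

/-! ### Square-root parameters -/

variable {s v w : ℝ}

theorem Q.abs_diag_le_of (hS : ∑ a ∈ F, Z a a ^ 2 ≤ s ^ 2) (hs : 0 ≤ s) {a : ι} (ha : a ∈ F) :
    |Z a a| ≤ s := by
  have h1 : Z a a ^ 2 ≤ ∑ a ∈ F, Z a a ^ 2 :=
    Finset.single_le_sum (f := fun a => Z a a ^ 2) (fun b _ => sq_nonneg _) ha
  exact abs_le_of_sq_le_sq (h1.trans hS) hs

/-- the diagonal terms of `Q₄` -/
theorem Q.sum_diag_four_le (hS : ∑ a ∈ F, Z a a ^ 2 ≤ s ^ 2) (hs : 0 ≤ s) :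
    ∑ a ∈ F, Z a a ^ 4 ≤ s ^ 4 := by
  calc ∑ a ∈ F, Z a a ^ 4 ≤ ∑ a ∈ F, s ^ 2 * Z a a ^ 2 := by
        apply Finset.sum_le_sum
        intro a ha
        have h1 : Z a a ^ 2 ≤ s ^ 2 := sq_le_sq' (abs_le.1 (Q.abs_diag_le_of hS hs ha)).1
          (abs_le.1 (Q.abs_diag_le_of hS hs ha)).2
        nlinarith [mul_le_mul_of_nonneg_right h1 (sq_nonneg (Z a a))]
    _ = s ^ 2 * ∑ a ∈ F, Z a a ^ 2 := by rw [← Finset.mul_sum]
    _ ≤ s ^ 2 * s ^ 2 := mul_le_mul_of_nonneg_left hS (sq_nonneg _)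
    _ = s ^ 4 := by ring

/-- `Σ |Z_aa| w_a ≤ s w` -/
theorem Q.sum_abs_diag_mul_le (hS : ∑ a ∈ F, Z a a ^ 2 ≤ s ^ 2) (hs : 0 ≤ s)
    (hW : ∑ a ∈ F, (Z ^ 2) a a ^ 2 ≤ w ^ 2) (hw : 0 ≤ w) :
    ∑ a ∈ F, |Z a a| * (Z ^ 2) a a ≤ s * w := by
  have h1 := Finset.sum_mul_sq_le_sq_mul_sq F (fun a => |Z a a|) (fun a => (Z ^ 2) a a)
  simp only [sq_abs] at h1
  have h0 : 0 ≤ ∑ a ∈ F, Z a a ^ 2 := Finset.sum_nonneg fun a _ => sq_nonneg _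
  have h2 : (∑ a ∈ F, |Z a a| * (Z ^ 2) a a) ^ 2 ≤ (s * w) ^ 2 := by
    rw [mul_pow]
    exact h1.trans (mul_le_mul hS hW (Finset.sum_nonneg fun a _ => sq_nonneg _) (sq_nonneg _))
  exact (abs_le_of_sq_le_sq' h2 (by positivity)).2

/-- `|Σ Z_aa (w_a - 1)| ≤ s v` -/
theorem Q.abs_sum_diag_mul_sub_le (hS : ∑ a ∈ F, Z a a ^ 2 ≤ s ^ 2) (hs : 0 ≤ s)
    (hV : ∑ a ∈ F, ((Z ^ 2) a a - 1) ^ 2 ≤ v ^ 2) (hv : 0 ≤ v) :
    |∑ a ∈ F, Z a a * ((Z ^ 2) a a - 1)| ≤ s * v := by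
  have h1 := Finset.sum_mul_sq_le_sq_mul_sq F (fun a => Z a a) (fun a => (Z ^ 2) a a - 1)
  have h0 : 0 ≤ ∑ a ∈ F, Z a a ^ 2 := Finset.sum_nonneg fun a _ => sq_nonneg _
  have h2 : (∑ a ∈ F, Z a a * ((Z ^ 2) a a - 1)) ^ 2 ≤ (s * v) ^ 2 := by
    rw [mul_pow]
    exact h1.trans (mul_le_mul hS hV (Finset.sum_nonneg fun a _ => sq_nonneg _) (sq_nonneg _))
  exact abs_le_of_sq_le_sq h2 (by positivity)

/-- `Σ Z_aa² w_a ≤ s² r` if all `w_a ≤ r` -/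
theorem Q.sum_diag_sq_mul_le {r : ℝ} (hS : ∑ a ∈ F, Z a a ^ 2 ≤ s ^ 2)
    (hr : ∀ a ∈ F, (Z ^ 2) a a ≤ r) (hr0 : 0 ≤ r) :
    ∑ a ∈ F, Z a a ^ 2 * (Z ^ 2) a a ≤ s ^ 2 * r := by
  calc ∑ a ∈ F, Z a a ^ 2 * (Z ^ 2) a a ≤ ∑ a ∈ F, Z a a ^ 2 * r :=
        Finset.sum_le_sum fun a ha => mul_le_mul_of_nonneg_left (hr a ha) (sq_nonneg _)
    _ = (∑ a ∈ F, Z a a ^ 2) * r := by rw [Finset.sum_mul]
    _ ≤ s ^ 2 * r := mul_le_mul_of_nonneg_right hS hr0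

theorem Q.sq_diag_le_of_V (hV : ∑ a ∈ F, ((Z ^ 2) a a - 1) ^ 2 ≤ v ^ 2) (hv : 0 ≤ v) {a : ι}
    (ha : a ∈ F) : (Z ^ 2) a a ≤ 1 + v := by
  have h1 : ((Z ^ 2) a a - 1) ^ 2 ≤ ∑ a ∈ F, ((Z ^ 2) a a - 1) ^ 2 :=
    Finset.single_le_sum (f := fun a => ((Z ^ 2) a a - 1) ^ 2) (fun b _ => sq_nonneg _) ha
  have := (abs_le_of_sq_le_sq' (h1.trans hV) hv).2
  linarith

theorem Q.sq_diag_le_of_W (hW : ∑ a ∈ F, (Z ^ 2) a a ^ 2 ≤ w ^ 2) (hw : 0 ≤ w) {a : ι}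
    (ha : a ∈ F) : (Z ^ 2) a a ≤ w := by
  have h1 : (Z ^ 2) a a ^ 2 ≤ ∑ a ∈ F, (Z ^ 2) a a ^ 2 :=
    Finset.single_le_sum (f := fun a => (Z ^ 2) a a ^ 2) (fun b _ => sq_nonneg _) ha
  exact (abs_le_of_sq_le_sq' (h1.trans hW) hw).2

/-- **`Q₄`, form with `V ≤ v²`** (phases I, II) -/
theorem Sg.Q4_le_V (h : Sg F Z m e) (he : e = 1 ∨ e = -1) (hm : 0 < m) (hm1 : m < 1)
    (hs : 0 ≤ s) (hv : 0 ≤ v) (hw : 0 ≤ w) (hS : ∑ a ∈ F, Z a a ^ 2 ≤ s ^ 2)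
    (hV : ∑ a ∈ F, ((Z ^ 2) a a - 1) ^ 2 ≤ v ^ 2) (hW : ∑ a ∈ F, (Z ^ 2) a a ^ 2 ≤ w ^ 2) :
    Q4 F Z ≤ m ^ 2 * (Z ^ 2).trace + 2 * m * (e * Z.trace + s * v) + s ^ 2 * (1 + v) + s ^ 4 +
      2 / F.card * (3 * (Z ^ 2).trace + 2 * (s * w) + w ^ 2) := by
  have hN : (0 : ℝ) < F.card := by exact_mod_cast h.card
  have h0 := h.Q4_le he hm hm1
  have h1 := Q.sum_diag_four_le hS hs
  have h2 := Q.sum_abs_diag_mul_le hS hs hW hw
  have h3 := Q.abs_sum_diag_mul_sub_le hS hs hV hv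
  have h4 := Q.sum_diag_sq_mul_le hS (fun a ha => Q.sq_diag_le_of_V hV hv ha) (by positivity)
  have hee : |e| = 1 := by rcases he with he | he <;> rw [he] <;> norm_num
  have e1 : ∑ a ∈ F, Z a a * (Z ^ 2) a a = Z.trace + ∑ a ∈ F, Z a a * ((Z ^ 2) a a - 1) := by
    have : Z.trace = ∑ a ∈ F, Z a a := by
      simp only [Matrix.trace, Matrix.diag]
      exact (Finset.sum_subset (Finset.subset_univ F) fun i _ hi => h.supp i i (Or.inl hi)).symm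
    rw [this, ← Finset.sum_add_distrib]
    exact Finset.sum_congr rfl fun a _ => by ring
  have h5 : e * ∑ a ∈ F, Z a a * (Z ^ 2) a a ≤ e * Z.trace + s * v := by
    rw [e1, mul_add]
    have : e * ∑ a ∈ F, Z a a * ((Z ^ 2) a a - 1) ≤ s * v := by
      calc e * ∑ a ∈ F, Z a a * ((Z ^ 2) a a - 1) ≤ |e * ∑ a ∈ F, Z a a * ((Z ^ 2) a a - 1)| :=
            le_abs_self _
        _ = |∑ a ∈ F, Z a a * ((Z ^ 2) a a - 1)| := by rw [abs_mul, hee, one_mul]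
        _ ≤ s * v := h3
    linarith
  have h6 : 2 * m * (e * ∑ a ∈ F, Z a a * (Z ^ 2) a a) ≤ 2 * m * (e * Z.trace + s * v) :=
    mul_le_mul_of_nonneg_left h5 (by positivity)
  have h7 : 2 / (F.card : ℝ) * (3 * (Z ^ 2).trace + 2 * ∑ a ∈ F, |Z a a| * (Z ^ 2) a a +
      ∑ a ∈ F, (Z ^ 2) a a ^ 2) ≤ 2 / F.card * (3 * (Z ^ 2).trace + 2 * (s * w) + w ^ 2) :=
    mul_le_mul_of_nonneg_left (by linarith) (by positivity)
  linarith

/-- **`Q₄`, form with `Σ w_a² ≤ w²`** (phase III) -/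
theorem Sg.Q4_le_W (h : Sg F Z m e) (he : e = 1 ∨ e = -1) (hm : 0 < m) (hm1 : m < 1)
    (hs : 0 ≤ s) (hw : 0 ≤ w) (hS : ∑ a ∈ F, Z a a ^ 2 ≤ s ^ 2)
    (hW : ∑ a ∈ F, (Z ^ 2) a a ^ 2 ≤ w ^ 2) :
    Q4 F Z ≤ m ^ 2 * (Z ^ 2).trace + 2 * m * (s * w) + s ^ 2 * w + s ^ 4 +
      2 / F.card * (3 * (Z ^ 2).trace + 2 * (s * w) + w ^ 2) := by
  have hN : (0 : ℝ) < F.card := by exact_mod_cast h.card
  have h0 := h.Q4_le he hm hm1
  have h1 := Q.sum_diag_four_le hS hs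
  have h2 := Q.sum_abs_diag_mul_le hS hs hW hw
  have h4 := Q.sum_diag_sq_mul_le hS (fun a ha => Q.sq_diag_le_of_W hW hw ha) hw
  have hee : |e| = 1 := by rcases he with he | he <;> rw [he] <;> norm_num
  have h5 : e * ∑ a ∈ F, Z a a * (Z ^ 2) a a ≤ s * w := by
    calc e * ∑ a ∈ F, Z a a * (Z ^ 2) a a ≤ |e * ∑ a ∈ F, Z a a * (Z ^ 2) a a| := le_abs_self _
      _ = |∑ a ∈ F, Z a a * (Z ^ 2) a a| := by rw [abs_mul, hee, one_mul]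
      _ ≤ ∑ a ∈ F, |Z a a| * (Z ^ 2) a a := by
        refine (Finset.abs_sum_le_sum_abs _ _).trans (le_of_eq ?_)
        exact Finset.sum_congr rfl fun a _ => by
          rw [abs_mul, abs_of_nonneg (Q.sq_diag_nonneg h.symm a)]
      _ ≤ s * w := h2
  have h6 : 2 * m * (e * ∑ a ∈ F, Z a a * (Z ^ 2) a a) ≤ 2 * m * (s * w) :=
    mul_le_mul_of_nonneg_left h5 (by positivity)
  have h7 : 2 / (F.card : ℝ) * (3 * (Z ^ 2).trace + 2 * ∑ a ∈ F, |Z a a| * (Z ^ 2) a a +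
      ∑ a ∈ F, (Z ^ 2) a a ^ 2) ≤ 2 / F.card * (3 * (Z ^ 2).trace + 2 * (s * w) + w ^ 2) :=
    mul_le_mul_of_nonneg_left (by linarith) (by positivity)
  linarith

end Vale.Agent.P049.TS
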